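import Vale.Agent.P235.H56.Defs

/-!
# [W-FACE] (helper490): capping a non-separating triangle

`G` a graph without a `K_{3,3}` minor and without a `K_5` minor, `s 0, s 1, s 2` a triangle of `G`
whose complement is connected. Then `G` with a new vertex joined to the triangle has no `K_{3,3}`
minor. No planarity is used.
-/

set_option linter.all false

namespace Vale.Agent.P235.K5.H490

open SimpleGraph Vale.Agent.P235.H134 Vale.Agent.P235.H56
open Vale.Agent.P235.H341W (capG)

variable {V : Type} {G : SimpleGraph V}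

/-- an edge between `A` and `B` -/
def Tch (G : SimpleGraph V) (A B : Set V) : Prop := ∃ x ∈ A, ∃ y ∈ B, G.Adj x y

theorem Tch.symm {A B : Set V} (h : Tch G A B) : Tch G B A := by
  obtain ⟨x, hx, y, hy, h⟩ := h
  exact ⟨y, hy, x, hx, h.symm⟩

theorem Tch.mono {A B A' B' : Set V} (h : Tch G A B) (hA : A ⊆ A') (hB : B ⊆ B') :
    Tch G A' B' := by
  obtain ⟨x, hx, y, hy, h⟩ := h
  exact ⟨x, hA hx, y, hB hy, h⟩

/-- `T` is closed in `S` -/
def Clo (G : SimpleGraph V) (S T : Set V) : Prop := ∀ x ∈ T, ∀ y ∈ S, G.Adj x y → y ∈ T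

/-- connectivity by closed sets -/
theorem cn_iff {S : Set V} : (G.induce S).Connected ↔
    S.Nonempty ∧ ∀ T, T ⊆ S → T.Nonempty → Clo G S T → S ⊆ T := by
  constructor
  · intro h
    obtain ⟨⟨x0, hx0⟩⟩ := h.nonempty
    refine ⟨⟨x0, hx0⟩, fun T hT hne hcl y hy => ?_⟩
    obtain ⟨x, hx⟩ := hne
    obtain ⟨w⟩ := h.preconnected ⟨x, hT hx⟩ ⟨y, hy⟩
    have key : ∀ (a b : S) (w : (G.induce S).Walk a b), a.1 ∈ T → b.1 ∈ T := by
      intro a b w
      induction w with
      | nil => exact id
      | @cons a b c hab _ ih => exact fun ha => ih (hcl a.1 ha b.1 b.2 hab)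
    exact key _ _ w hx
  · rintro ⟨⟨x0, hx0⟩, h⟩
    haveI : Nonempty S := ⟨⟨x0, hx0⟩⟩
    refine ⟨fun a b => ?_⟩
    have := h {y | ∃ hy : y ∈ S, (G.induce S).Reachable a ⟨y, hy⟩} (fun y hy => hy.1)
      ⟨a.1, a.2, Reachable.refl _⟩ (by
        rintro x ⟨hx, hr⟩ y hy hxy
        exact ⟨hy, hr.trans (Adj.reachable (show (G.induce S).Adj ⟨x, hx⟩ ⟨y, hy⟩ from hxy))⟩)
    exact (this b.2).2

theorem cn_union {A B : Set V} (hA : (G.induce A).Connected) (hB : (G.induce B).Connected)
    (h : Tch G A B) : (G.induce (A ∪ B)).Connected := by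
  rw [cn_iff] at hA hB ⊢
  obtain ⟨x, hx, y, hy, hxy⟩ := h
  refine ⟨hA.1.mono Set.subset_union_left, fun T hT hne hcl => ?_⟩
  have kA : (T ∩ A).Nonempty → A ⊆ T := fun hn => (hA.2 (T ∩ A) Set.inter_subset_right hn
    (fun x hx y hy h => ⟨hcl x hx.1 y (Or.inl hy) h, hy⟩)).trans Set.inter_subset_left
  have kB : (T ∩ B).Nonempty → B ⊆ T := fun hn => (hB.2 (T ∩ B) Set.inter_subset_right hn
    (fun x hx y hy h => ⟨hcl x hx.1 y (Or.inr hy) h, hy⟩)).trans Set.inter_subset_left
  obtain ⟨t, ht⟩ := hne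
  rcases hT ht with h1 | h1
  · have a1 := kA ⟨t, ht, h1⟩
    have a2 : y ∈ T := hcl x (a1 hx) y (Or.inr hy) hxy
    exact Set.union_subset a1 (kB ⟨y, a2, hy⟩)
  · have a1 := kB ⟨t, ht, h1⟩
    have a2 : x ∈ T := hcl y (a1 hy) x (Or.inl hx) hxy.symm
    exact Set.union_subset (kA ⟨x, a2, hx⟩) a1

/-- the union of the components of `G[W]` which meet `M` -/
def clos (G : SimpleGraph V) (W M : Set V) : Set V :=
  {y | y ∈ W ∧ ∀ T, T ⊆ W → M ⊆ T → Clo G W T → y ∈ T}

theorem clos_sub {W M : Set V} : clos G W M ⊆ W := fun _ h => h.1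

theorem sub_clos {W M : Set V} (h : M ⊆ W) : M ⊆ clos G W M :=
  fun _ hy => ⟨h hy, fun _ _ h' _ => h' hy⟩

theorem clos_clo {W M : Set V} : Clo G W (clos G W M) := by
  rintro x ⟨hx, hx'⟩ y hy hxy
  exact ⟨hy, fun T h1 h2 h3 => h3 x (hx' T h1 h2 h3) y hy hxy⟩

theorem clos_conn {W M : Set V} (hM : (G.induce M).Connected) (h : M ⊆ W) :
    (G.induce (clos G W M)).Connected := by
  rw [cn_iff] at hM ⊢
  refine ⟨hM.1.mono (sub_clos h), fun T hT hne hcl => ?_⟩
  by_cases hTM : (T ∩ M).Nonempty
  · have hMT : M ⊆ T := (hM.2 (T ∩ M) Set.inter_subset_right hTM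
      (fun x hx y hy h' => ⟨hcl x hx.1 y (sub_clos h hy) h', hy⟩)).trans Set.inter_subset_left
    intro y hy
    refine hy.2 T (hT.trans clos_sub) hMT ?_
    intro a ha b hb hab
    exact hcl a ha b (clos_clo a (hT ha) b hb hab) hab
  · exfalso
    obtain ⟨t, ht⟩ := hne
    have := (hT ht).2 (clos G W M \ T) (Set.diff_subset.trans clos_sub)
      (fun m hm => ⟨sub_clos h hm, fun hmT => hTM ⟨m, hmT, hm⟩⟩) (by
        rintro x ⟨hx, hxT⟩ y hy hxy
        have hy' := clos_clo x hx y hy hxy
        exact ⟨hy', fun hyT => hxT (hcl y hyT x hx hxy.symm)⟩)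
    exact this.2 ht

/-- the branch of `B` at `s` which contains `v` -/
theorem branch {B : Set V} (hB : (G.induce B).Connected) {s v : V} (hs : s ∈ B) (hv : v ∈ B)
    (hvs : v ≠ s) : ∃ X, X ⊆ B ∧ v ∈ X ∧ s ∉ X ∧ (G.induce X).Connected ∧
      (G.induce (B \ X)).Connected ∧ Tch G X {s} ∧ Clo G (B \ {s}) X := by
  have hv' : ({v} : Set V) ⊆ B \ {s} := by
    rintro _ rfl
    exact ⟨hv, hvs⟩
  have hc1 : (G.induce ({v} : Set V)).Connected := by
    haveI : Nonempty ({v} : Set V) := ⟨⟨v, rfl⟩⟩
    refine ⟨fun x y => ?_⟩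
    obtain rfl : x = y := Subtype.ext (x.2.trans y.2.symm)
    exact Reachable.refl _
  set X := clos G (B \ {s}) {v} with hX
  have hXW : X ⊆ B \ {s} := clos_sub
  have hcl : Clo G (B \ {s}) X := clos_clo
  have hvX : v ∈ X := sub_clos hv' rfl
  have hsX : s ∉ X := fun h => (hXW h).2 rfl
  have hXc : (G.induce X).Connected := clos_conn hc1 hv'
  have hB' := hB
  rw [cn_iff] at hB'
  refine ⟨X, hXW.trans Set.diff_subset, hvX, hsX, hXc, ?_, ?_, hcl⟩
  · rw [cn_iff]
    refine ⟨⟨s, hs, hsX⟩, fun T hT hne hT' => ?_⟩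
    by_cases hsT : s ∈ T
    · have := hB'.2 (T ∪ X) (Set.union_subset (hT.trans Set.diff_subset)
        (hXW.trans Set.diff_subset)) (hne.mono Set.subset_union_left) (by
          rintro x (hx | hx) y hy hxy
          · by_cases hyX : y ∈ X
            · exact Or.inr hyX
            · exact Or.inl (hT' x hx y ⟨hy, hyX⟩ hxy)
          · by_cases hys : y = s
            · exact Or.inl (hys ▸ hsT)
            · exact Or.inr (hcl x hx y ⟨hy, hys⟩ hxy))
      rintro y ⟨hy, hyX⟩
      exact (this hy).resolve_right hyX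
    · exfalso
      have := hB'.2 T (hT.trans Set.diff_subset) hne (by
        intro x hx y hy hxy
        by_cases hyX : y ∈ X
        · exfalso
          have hxs : x ≠ s := fun e => hsT (e ▸ hx)
          exact (hT hx).2 (hcl y hyX x ⟨(hT hx).1, hxs⟩ hxy.symm)
        · exact hT' x hx y ⟨hy, hyX⟩ hxy)
      exact hsT (this hs)
  · by_contra hno
    have := hB'.2 X (hXW.trans Set.diff_subset) ⟨v, hvX⟩ (by
      intro x hx y hy hxy
      by_cases hys : y = s
      · exact absurd ⟨x, hx, s, rfl, hys ▸ hxy⟩ hno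
      · exact hcl x hx y ⟨hy, hys⟩ hxy)
    exact hsX (this hs)

/-- a `K_{3,3}` minor from its branch sets -/
theorem k33_of (A B : Fin 3 → Set V) (hA : ∀ i, (G.induce (A i)).Connected)
    (hB : ∀ i, (G.induce (B i)).Connected) (dA : ∀ i j, i ≠ j → Disjoint (A i) (A j))
    (dB : ∀ i j, i ≠ j → Disjoint (B i) (B j)) (dAB : ∀ i j, Disjoint (A i) (B j))
    (t : ∀ i j, Tch G (A i) (B j)) : IsMinor K33 G := by
  refine ⟨Sum.elim A B, ?_, ?_, ?_⟩
  · rintro (i | i)
    · exact hA i
    · exact hB i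
  · rintro (i | i) (j | j) h
    · exact dA i j (fun e => h (e ▸ rfl))
    · exact dAB i j
    · exact (dAB j i).symm
    · exact dB i j (fun e => h (e ▸ rfl))
  · rintro (i | i) (j | j) h
    · simp at h
    · exact t i j
    · exact (t j i).symm
    · simp at h

/-- a `K_5` minor from its branch sets -/
theorem k5_of (μ : Fin 5 → Set V) (hc : ∀ i, (G.induce (μ i)).Connected)
    (h : ∀ i j, i < j → Disjoint (μ i) (μ j) ∧ Tch G (μ i) (μ j)) :
    IsMinor (⊤ : SimpleGraph (Fin 5)) G := by
  refine ⟨μ, hc, fun i j hij => ?_, fun i j hij => ?_⟩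
  · rcases lt_or_gt_of_ne hij with h1 | h1
    · exact (h i j h1).1
    · exact (h j i h1).1.symm
  · have hne : i ≠ j := hij
    rcases lt_or_gt_of_ne hne with h1 | h1
    · exact (h i j h1).2
    · exact (h j i h1).2.symm

theorem cn_single (a : V) : (G.induce ({a} : Set V)).Connected := by
  haveI : Nonempty ({a} : Set V) := ⟨⟨a, rfl⟩⟩
  refine ⟨fun x y => ?_⟩
  obtain rfl : x = y := Subtype.ext (x.2.trans y.2.symm)
  exact Reachable.refl _

/-- two disjoint connected sets off a triangle, joined to all its vertices, in a connected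
complement: `K_5` -/
theorem k5_of_two (s : Fin 3 → V) (hs : Function.Injective s)
    (htri : ∀ i j, i ≠ j → G.Adj (s i) (s j)) (hU : (G.induce (Set.range s)ᶜ).Connected)
    (M N : Set V) (hM : (G.induce M).Connected) (hN : (G.induce N).Connected)
    (hMN : Disjoint M N) (hMs : ∀ i, s i ∉ M) (hNs : ∀ i, s i ∉ N)
    (tM : ∀ i, Tch G M {s i}) (tN : ∀ i, Tch G N {s i}) :
    IsMinor (⊤ : SimpleGraph (Fin 5)) G := by
  set U : Set V := (Set.range s)ᶜ with hUdef
  have hMU : M ⊆ U := by
    rintro x hx ⟨i, rfl⟩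
    exact hMs i hx
  have hNU : N ⊆ U := by
    rintro x hx ⟨i, rfl⟩
    exact hNs i hx
  have hNW : N ⊆ U \ M := fun x hx => ⟨hNU hx, fun h => Set.disjoint_left.1 hMN h hx⟩
  set N' := clos G (U \ M) N with hN'
  have c1 : (G.induce N').Connected := clos_conn hN hNW
  have c2 : N' ⊆ U \ M := clos_sub
  have c3 : Clo G (U \ M) N' := clos_clo
  have c4 : N ⊆ N' := sub_clos hNW
  have hdis : Disjoint M N' := Set.disjoint_left.2 fun x h1 h2 => (c2 h2).2 h1
  have hN's : ∀ i, s i ∉ N' := fun i h => (c2 h).1 ⟨i, rfl⟩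
  have tMN : Tch G M N' := by
    by_contra hno
    have hU' := hU
    rw [cn_iff] at hU'
    rw [cn_iff] at hM hN
    obtain ⟨m, hm⟩ := hM.1
    have := hU'.2 N' (fun x hx => (c2 hx).1) (hN.1.mono c4) (by
      intro x hx y hy hxy
      by_cases hyM : y ∈ M
      · exact absurd ⟨y, hyM, x, hx, hxy.symm⟩ hno
      · exact c3 x hx y ⟨hy, hyM⟩ hxy)
    exact (c2 (this (hMU hm))).2 hm
  have tN' : ∀ i, Tch G N' {s i} := fun i => (tN i).mono c4 le_rfl
  have dM : ∀ i, Disjoint M {s i} := fun i => Set.disjoint_singleton_right.2 (hMs i)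
  have dN : ∀ i, Disjoint N' {s i} := fun i => Set.disjoint_singleton_right.2 (hN's i)
  have ds : ∀ i j, i ≠ j → Disjoint ({s i} : Set V) {s j} ∧ Tch G {s i} {s j} := fun i j hij =>
    ⟨Set.disjoint_singleton.2 fun e => hij (hs e), ⟨s i, rfl, s j, rfl, htri i j hij⟩⟩
  refine k5_of ![M, N', {s 0}, {s 1}, {s 2}] ?_ ?_
  · intro i
    fin_cases i
    · exact hM
    · exact c1
    · exact cn_single _
    · exact cn_single _
    · exact cn_single _
  · intro i j hij
    fin_cases i <;> fin_cases j <;> first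
      | exact absurd hij (by decide)
      | exact ⟨hdis, tMN⟩
      | exact ⟨dM 0, tM 0⟩
      | exact ⟨dM 1, tM 1⟩
      | exact ⟨dM 2, tM 2⟩
      | exact ⟨dN 0, tN' 0⟩
      | exact ⟨dN 1, tN' 1⟩
      | exact ⟨dN 2, tN' 2⟩
      | exact ds 0 1 (by decide)
      | exact ds 0 2 (by decide)
      | exact ds 1 2 (by decide)

/-- the branch of `B` touched by `A`, or nothing if `A` touches `s` -/
theorem arm {A B : Set V} (hA : (G.induce A).Connected) (hB : (G.induce B).Connected) {s : V}
    (hs : s ∈ B) (h : Tch G A B) : ∃ X, X ⊆ B ∧ s ∉ X ∧ (G.induce (A ∪ X)).Connected ∧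
      Tch G (A ∪ X) {s} ∧ (X = ∅ ∨ ((G.induce X).Connected ∧ Tch G X A ∧
        (G.induce (B \ X)).Connected ∧ Tch G X {s} ∧ Clo G (B \ {s}) X)) := by
  by_cases h1 : Tch G A {s}
  · refine ⟨∅, Set.empty_subset _, fun h => h, ?_, ?_, Or.inl rfl⟩
    · rw [Set.union_empty]
      exact hA
    · rw [Set.union_empty]
      exact h1
  · obtain ⟨x, hx, v, hv, hxv⟩ := h
    have hvs : v ≠ s := fun e => h1 ⟨x, hx, s, rfl, e ▸ hxv⟩
    obtain ⟨X, a1, a2, a3, a4, a5, a6, a7⟩ := branch hB hs hv hvs
    have t1 : Tch G A X := ⟨x, hx, v, a2, hxv⟩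
    exact ⟨X, a1, a3, cn_union hA a4 t1, a6.mono Set.subset_union_right le_rfl,
      Or.inr ⟨a4, t1.symm, a5, a6, a7⟩⟩

/-- the core -/
theorem core (s : Fin 3 → V) (hs : Function.Injective s)
    (htri : ∀ i j, i ≠ j → G.Adj (s i) (s j)) (hU : (G.induce (Set.range s)ᶜ).Connected)
    (A₂ A₃ : Set V) (B : Fin 3 → Set V) (h2 : (G.induce A₂).Connected)
    (h3 : (G.induce A₃).Connected) (hB : ∀ i, (G.induce (B i)).Connected)
    (d23 : Disjoint A₂ A₃) (dB : ∀ i j, i ≠ j → Disjoint (B i) (B j))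
    (d2 : ∀ i, Disjoint A₂ (B i)) (d3 : ∀ i, Disjoint A₃ (B i)) (hsB : ∀ i, s i ∈ B i)
    (t2 : ∀ i, Tch G A₂ (B i)) (t3 : ∀ i, Tch G A₃ (B i)) :
    IsMinor K33 G ∨ IsMinor (⊤ : SimpleGraph (Fin 5)) G := by
  classical
  choose X x1 x2 x3 x4 x5 using fun i => arm h2 (hB i) (hsB i) (t2 i)
  choose Y y1 y2 y3 y4 y5 using fun i => arm h3 (hB i) (hsB i) (t3 i)
  by_cases hXY : ∃ i, (X i ∩ Y i).Nonempty
  · left
    obtain ⟨i, v, hvX, hvY⟩ := hXY
    have hX := (x5 i).resolve_left (fun e => by rw [e] at hvX; exact hvX)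
    have hY := (y5 i).resolve_left (fun e => by rw [e] at hvY; exact hvY)
    obtain ⟨p1, p2, p3, p4, p5⟩ := hX
    obtain ⟨q1, q2, q3, q4, q5⟩ := hY
    have hYX : Y i ⊆ X i := by
      have := (cn_iff.1 q1).2 (Y i ∩ X i) Set.inter_subset_left ⟨v, hvY, hvX⟩ (by
        rintro a ⟨ha, ha'⟩ b hb hab
        exact ⟨hb, p5 a ha' b ⟨y1 i hb, fun e => y2 i (e ▸ hb)⟩ hab⟩)
      exact this.trans Set.inter_subset_right
    have r3 : Tch G (X i) A₃ := q2.mono hYX le_rfl
    have rs : ∀ j, s j ∉ X i := by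
      intro j hj
      by_cases hji : j = i
      · exact x2 i (hji ▸ hj)
      · exact Set.disjoint_left.1 (dB j i hji) (hsB j) (x1 i hj)
    refine k33_of (fun j => if j = i then X i else B j) ![A₂, A₃, B i \ X i] ?_ ?_ ?_ ?_ ?_ ?_
    · intro j
      by_cases hj : j = i
      · show (G.induce (if j = i then X i else B j)).Connected
        rw [if_pos hj]; exact p1
      · show (G.induce (if j = i then X i else B j)).Connected
        rw [if_neg hj]; exact hB j
    · intro j
      fin_cases j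
      · exact h2
      · exact h3
      · exact p3
    · intro j k hjk
      by_cases hj : j = i <;> by_cases hk : k = i
      · exact absurd (hj.trans hk.symm) hjk
      · simp only [hj, hk, if_true, if_false]
        exact (dB i k (fun e => hk e.symm)).mono_left (x1 i)
      · simp only [hj, hk, if_true, if_false]
        exact (dB j i hj).mono_right (x1 i)
      · simp only [hj, hk, if_false]
        exact dB j k hjk
    · intro j k hjk
      have e2 : Disjoint A₂ (B i \ X i) := (d2 i).mono_right Set.diff_subset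
      have e3 : Disjoint A₃ (B i \ X i) := (d3 i).mono_right Set.diff_subset
      fin_cases j <;> fin_cases k <;> first
        | exact absurd rfl hjk
        | exact d23
        | exact d23.symm
        | exact e2
        | exact e2.symm
        | exact e3
        | exact e3.symm
    · intro j k
      by_cases hj : j = i
      · simp only [hj, if_true]
        fin_cases k
        · exact ((d2 i).mono_right (x1 i)).symm
        · exact ((d3 i).mono_right (x1 i)).symm
        · exact Set.disjoint_sdiff_right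
      · simp only [hj, if_false]
        fin_cases k
        · exact (d2 j).symm
        · exact (d3 j).symm
        · exact (dB j i hj).mono_right Set.diff_subset
    · intro j k
      by_cases hj : j = i
      · simp only [hj, if_true]
        fin_cases k
        · exact p2
        · exact r3
        · exact p4.mono le_rfl (by rintro _ rfl; exact ⟨hsB i, x2 i⟩)
      · simp only [hj, if_false]
        fin_cases k
        · exact (t2 j).symm
        · exact (t3 j).symm
        · exact ⟨s j, hsB j, s i, ⟨hsB i, x2 i⟩, htri j i hj⟩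
  · right
    have hdis : ∀ i j, Disjoint (X i) (Y j) := by
      intro i j
      by_cases hij : i = j
      · subst hij
        rw [Set.disjoint_iff_inter_eq_empty, ← Set.not_nonempty_iff_eq_empty]
        exact fun h => hXY ⟨i, h⟩
      · exact (dB i j hij).mono (x1 i) (y1 j)
    have uc : ∀ (A : Set V) (Z : Fin 3 → Set V), (G.induce A).Connected →
        (∀ i, (G.induce (A ∪ Z i)).Connected) → (G.induce (⋃ i, (A ∪ Z i))).Connected := by
      intro A Z hA hZ
      rw [cn_iff]
      have hA' := cn_iff.1 hA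
      refine ⟨hA'.1.mono (Set.subset_union_left.trans (Set.subset_iUnion (fun i => A ∪ Z i) 0)),
        fun T hT hne hcl => ?_⟩
      have key : ∀ i, (T ∩ (A ∪ Z i)).Nonempty → A ∪ Z i ⊆ T := fun i hn =>
        ((cn_iff.1 (hZ i)).2 (T ∩ (A ∪ Z i)) Set.inter_subset_right hn
          (fun x hx y hy h => ⟨hcl x hx.1 y (Set.mem_iUnion.2 ⟨i, hy⟩) h, hy⟩)).trans
          Set.inter_subset_left
      obtain ⟨t, ht⟩ := hne
      obtain ⟨i, hi⟩ := Set.mem_iUnion.1 (hT ht)
      have hAT : A ⊆ T := Set.subset_union_left.trans (key i ⟨t, ht, hi⟩)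
      obtain ⟨a, ha⟩ := hA'.1
      exact Set.iUnion_subset fun j => key j ⟨a, hAT ha, Or.inl ha⟩
    refine k5_of_two s hs htri hU (⋃ i, (A₂ ∪ X i)) (⋃ i, (A₃ ∪ Y i)) (uc _ _ h2 x3)
      (uc _ _ h3 y3) ?_ ?_ ?_ ?_ ?_
    · rw [Set.disjoint_left]
      intro v hv hv'
      obtain ⟨i, hi⟩ := Set.mem_iUnion.1 hv
      obtain ⟨j, hj⟩ := Set.mem_iUnion.1 hv'
      rcases hi with hi | hi <;> rcases hj with hj | hj
      · exact Set.disjoint_left.1 d23 hi hj
      · exact Set.disjoint_left.1 (d2 j) hi (y1 j hj)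
      · exact Set.disjoint_left.1 (d3 i) hj (x1 i hi)
      · exact Set.disjoint_left.1 (hdis i j) hi hj
    · intro j hv
      obtain ⟨i, hi⟩ := Set.mem_iUnion.1 hv
      rcases hi with hi | hi
      · exact Set.disjoint_left.1 (d2 j) hi (hsB j)
      · by_cases hij : i = j
        · subst hij
          exact x2 i hi
        · exact Set.disjoint_left.1 (dB i j hij) (x1 i hi) (hsB j)
    · intro j hv
      obtain ⟨i, hi⟩ := Set.mem_iUnion.1 hv
      rcases hi with hi | hi
      · exact Set.disjoint_left.1 (d3 j) hi (hsB j)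
      · by_cases hij : i = j
        · subst hij
          exact y2 i hi
        · exact Set.disjoint_left.1 (dB i j hij) (y1 i hi) (hsB j)
    · exact fun i => (x4 i).mono (Set.subset_iUnion (fun i => A₂ ∪ X i) i) le_rfl
    · exact fun i => (y4 i).mono (Set.subset_iUnion (fun i => A₃ ∪ Y i) i) le_rfl

/-- the points of `V` in a set of `Option V` -/
def dn (C : Set (Option V)) : Set V := {v | some v ∈ C}

theorem dn_disj {C D : Set (Option V)} (h : Disjoint C D) : Disjoint (dn C) (dn D) :=
  Set.disjoint_left.2 fun _ h1 h2 => Set.disjoint_left.1 h h1 h2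

/-- a part without the new vertex -/
theorem dn_conn {S : Set V} {C : Set (Option V)} (hC : ((capG G S).induce C).Connected)
    (hn : none ∉ C) : (G.induce (dn C)).Connected := by
  rw [cn_iff] at hC ⊢
  refine ⟨?_, fun T hT hne hcl => ?_⟩
  · obtain ⟨(_ | x), hx⟩ := hC.1
    · exact absurd hx hn
    · exact ⟨x, hx⟩
  · have := hC.2 (some '' T) (by rintro _ ⟨t, ht, rfl⟩; exact hT ht) (hne.image _) (by
      rintro _ ⟨t, ht, rfl⟩ (_ | y) hy hxy
      · exact absurd hy hn
      · exact ⟨y, hcl t ht y hy hxy, rfl⟩)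
    intro v hv
    obtain ⟨t, ht, e⟩ := this hv
    exact Option.some_injective _ e ▸ ht

/-- a part with the new vertex which contains a vertex of the clique `S` -/
theorem dn_conn' {S : Set V} (hS : ∀ x ∈ S, ∀ y ∈ S, x ≠ y → G.Adj x y) {C : Set (Option V)}
    (hC : ((capG G S).induce C).Connected) (hn : none ∈ C) {v₀ : V} (h0 : v₀ ∈ S)
    (h0' : some v₀ ∈ C) : (G.induce (dn C)).Connected := by
  rw [cn_iff] at hC ⊢
  refine ⟨⟨v₀, h0'⟩, fun T hT hne hcl => ?_⟩
  by_cases hTS : ∃ t ∈ T, t ∈ S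
  · obtain ⟨t, ht, htS⟩ := hTS
    have hall : ∀ x ∈ S, some x ∈ C → x ∈ T := by
      intro x hx hxC
      by_cases e : t = x
      · exact e ▸ ht
      · exact hcl t ht x hxC (hS t htS x hx e)
    have := hC.2 (insert none (some '' T)) (by
      rintro _ (rfl | ⟨t, ht, rfl⟩)
      · exact hn
      · exact hT ht) ⟨none, Or.inl rfl⟩ (by
      rintro _ (rfl | ⟨t, ht, rfl⟩) (_ | y) hy hxy
      · exact Or.inl rfl
      · exact Or.inr ⟨y, hall y hxy hy, rfl⟩
      · exact Or.inl rfl
      · exact Or.inr ⟨y, hcl t ht y hy hxy, rfl⟩)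
    intro v hv
    rcases this hv with e | ⟨t, ht, e⟩
    · exact absurd e (by simp)
    · exact Option.some_injective _ e ▸ ht
  · exfalso
    have := hC.2 (some '' T) (by rintro _ ⟨t, ht, rfl⟩; exact hT ht) (hne.image _) (by
      rintro _ ⟨t, ht, rfl⟩ (_ | y) hy hxy
      · exact absurd ⟨t, ht, hxy⟩ hTS
      · exact ⟨y, hcl t ht y hy hxy, rfl⟩)
    obtain ⟨t, ht, e⟩ := this hn
    exact absurd e (by simp)

/-- a part with the new vertex and no vertex of `S` is `{none}` -/
theorem dn_empty {S : Set V} {C : Set (Option V)} (hC : ((capG G S).induce C).Connected)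
    (hn : none ∈ C) (h0 : ∀ v ∈ S, some v ∉ C) : C ⊆ {none} := by
  rw [cn_iff] at hC
  refine hC.2 {none} (by rintro _ rfl; exact hn) ⟨none, rfl⟩ ?_
  rintro _ rfl (_ | y) hy hxy
  · rfl
  · exact absurd hy (h0 y hxy)

/-- reduction to the case that the new vertex is a part and meets all the opposite parts -/
theorem cap_model {S : Set V} (hS : ∀ x ∈ S, ∀ y ∈ S, x ≠ y → G.Adj x y)
    (h : IsMinor K33 (capG G S)) : IsMinor K33 G ∨ ∃ (A : Fin 3 → Set V) (B : Fin 3 → Set V)
      (s : Fin 3 → V), (∀ i, i ≠ 0 → (G.induce (A i)).Connected) ∧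
      (∀ i, (G.induce (B i)).Connected) ∧ (∀ i j, i ≠ j → Disjoint (A i) (A j)) ∧
      (∀ i j, i ≠ j → Disjoint (B i) (B j)) ∧ (∀ i j, Disjoint (A i) (B j)) ∧
      (∀ i j, i ≠ 0 → Tch G (A i) (B j)) ∧ (∀ i, s i ∈ S) ∧ (∀ i, s i ∈ B i) := by
  obtain ⟨μ, m1, m2, m3⟩ := h
  by_cases hn : ∀ a, none ∉ μ a
  · left
    refine ⟨fun a => dn (μ a), fun a => dn_conn (m1 a) (hn a), fun a b hab => dn_disj (m2 a b hab),
      fun a b hab => ?_⟩
    obtain ⟨(_ | x), hx, (_ | y), hy, hxy⟩ := m3 a b hab
    · exact absurd hx (hn a)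
    · exact absurd hx (hn a)
    · exact absurd hy (hn b)
    · exact ⟨x, hx, y, hy, hxy⟩
  · push Not at hn
    obtain ⟨a₀, ha₀⟩ := hn
    have huniq : ∀ a, a ≠ a₀ → none ∉ μ a := fun a h h' =>
      Set.disjoint_left.1 (m2 a a₀ h) h' ha₀
    by_cases hv : ∃ v ∈ S, some v ∈ μ a₀
    · left
      obtain ⟨v₀, h0, h0'⟩ := hv
      refine ⟨fun a => dn (μ a), fun a => ?_, fun a b hab => dn_disj (m2 a b hab),
        fun a b hab => ?_⟩
      · by_cases h : a = a₀
        · subst h
          exact dn_conn' hS (m1 a) ha₀ h0 h0'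
        · exact dn_conn (m1 a) (huniq a h)
      · have hne : a ≠ b := hab.ne
        obtain ⟨(_ | x), hx, (_ | y), hy, hxy⟩ := m3 a b hab
        · exact absurd hx (fun hx => Set.disjoint_left.1 (m2 a b hne) hx hy)
        · have e : a = a₀ := by
            by_contra h
            exact huniq a h hx
          subst e
          have hne' : v₀ ≠ y := by
            rintro rfl
            exact Set.disjoint_left.1 (m2 a b hne) h0' hy
          exact ⟨v₀, h0', y, hy, hS v₀ h0 y hxy hne'⟩
        · have e : b = a₀ := by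
            by_contra h
            exact huniq b h hy
          subst e
          have hne' : x ≠ v₀ := by
            rintro rfl
            exact Set.disjoint_left.1 (m2 a b hne) hx h0'
          exact ⟨x, hx, v₀, h0', hS x hxy v₀ h0 hne'⟩
        · exact ⟨x, hx, y, hy, hxy⟩
    · right
      push Not at hv
      have hem := dn_empty (m1 a₀) ha₀ hv
      -- an automorphism of `K33` which carries `inl 0` to `a₀`
      obtain ⟨e, he, he0⟩ : ∃ e : Fin 3 ⊕ Fin 3 → Fin 3 ⊕ Fin 3, (Function.Injective e ∧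
          ∀ i j, K33.Adj (e (Sum.inl i)) (e (Sum.inr j))) ∧ e (Sum.inl 0) = a₀ := by
        rcases a₀ with i | i
        · refine ⟨Sum.map (Equiv.swap 0 i) id, ⟨?_, ?_⟩, ?_⟩
          · exact Sum.map_injective.2 ⟨(Equiv.swap 0 i).injective, Function.injective_id⟩
          · intro a b
            simp
          · simp
        · refine ⟨Sum.swap ∘ Sum.map (Equiv.swap 0 i) id, ⟨?_, ?_⟩, ?_⟩
          · exact (Sum.swap_leftInverse.injective).comp
              (Sum.map_injective.2 ⟨(Equiv.swap 0 i).injective, Function.injective_id⟩)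
          · intro a b
            simp
          · simp
      have hB : ∀ j, ∃ v ∈ S, some v ∈ μ (e (Sum.inr j)) := by
        intro j
        obtain ⟨x, hx, y, hy, hxy⟩ := m3 _ _ (he.2 0 j)
        rw [he0] at hx
        have hx' : x = none := hem hx
        subst hx'
        rcases y with _ | y
        · exact absurd hxy (SimpleGraph.irrefl _)
        · exact ⟨y, hxy, hy⟩
      choose s s1 s2 using hB
      refine ⟨fun i => dn (μ (e (Sum.inl i))), fun i => dn (μ (e (Sum.inr i))), s, ?_, ?_, ?_, ?_,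
        ?_, ?_, s1, s2⟩
      · intro i hi
        refine dn_conn (m1 _) (huniq _ fun h => hi ?_)
        exact Sum.inl_injective (he.1 (h.trans he0.symm))
      · intro i
        refine dn_conn (m1 _) (huniq _ fun h => ?_)
        have := he.1 (h.trans he0.symm)
        simp at this
      · intro i j hij
        exact dn_disj (m2 _ _ fun h => hij (Sum.inl_injective (he.1 h)))
      · intro i j hij
        exact dn_disj (m2 _ _ fun h => hij (Sum.inr_injective (he.1 h)))
      · intro i j
        refine dn_disj (m2 _ _ fun h => ?_)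
        have := he.1 h
        simp at this
      · intro i j hi
        obtain ⟨x, hx, y, hy, hxy⟩ := m3 _ _ (he.2 i j)
        have n1 : e (Sum.inl i) ≠ a₀ := fun h => hi (Sum.inl_injective (he.1 (h.trans he0.symm)))
        have n2 : e (Sum.inr j) ≠ a₀ := fun h => by
          have := he.1 (h.trans he0.symm)
          simp at this
        rcases x with _ | x
        · exact absurd hx (huniq _ n1)
        · rcases y with _ | y
          · exact absurd hy (huniq _ n2)
          · exact ⟨x, hx, y, hy, hxy⟩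

/-- **[W-FACE]**: a graph without `K_{3,3}` and `K_5` minors, with a new vertex joined to a triangle
whose complement is connected, has no `K_{3,3}` minor. -/
theorem face (s : Fin 3 → V) (htri : ∀ i j, i ≠ j → G.Adj (s i) (s j))
    (hU : (G.induce (Set.range s)ᶜ).Connected) (h33 : ¬ IsMinor K33 G)
    (h5 : ¬ IsMinor (⊤ : SimpleGraph (Fin 5)) G) : ¬ IsMinor K33 (capG G (Set.range s)) := by
  intro h
  have hS : ∀ x ∈ Set.range s, ∀ y ∈ Set.range s, x ≠ y → G.Adj x y := by
    rintro _ ⟨i, rfl⟩ _ ⟨j, rfl⟩ hij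
    exact htri i j fun e => hij (e ▸ rfl)
  rcases cap_model hS h with h | ⟨A, B, s', a1, a2, a3, a4, a5, a6, a7, a8⟩
  · exact h33 h
  · have hs' : Function.Injective s' := by
      intro i j hij
      by_contra hne
      exact Set.disjoint_left.1 (a4 i j hne) (a8 i) (hij ▸ a8 j)
    have hs : Function.Injective s := by
      intro i j hij
      by_contra hne
      exact (htri i j hne).ne hij
    have hr : Set.range s' = Set.range s := by
      have hsub : Set.range s' ⊆ Set.range s := by
        rintro _ ⟨i, rfl⟩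
        exact a7 i
      refine Set.eq_of_subset_of_ncard_le hsub ?_ (Set.finite_range s)
      rw [← Nat.card_coe_set_eq, ← Nat.card_coe_set_eq, Nat.card_range_of_injective hs,
        Nat.card_range_of_injective hs']
    have htri' : ∀ i j, i ≠ j → G.Adj (s' i) (s' j) := fun i j hij =>
      hS _ (a7 i) _ (a7 j) fun e => hij (hs' e)
    rw [← hr] at hU
    rcases core s' hs' htri' hU (A 1) (A 2) B (a1 1 (by decide)) (a1 2 (by decide)) a2
      (a3 1 2 (by decide)) a4 (a5 1) (a5 2) a8 (fun i => a6 1 i (by decide))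
      (fun i => a6 2 i (by decide)) with h | h
    · exact h33 h
    · exact h5 h

/-- a clique with at most two vertices: no condition on the complement -/
theorem face_le_two {S : Set V} (hS : ∀ x ∈ S, ∀ y ∈ S, x ≠ y → G.Adj x y) (h2 : S.encard ≤ 2)
    (h33 : ¬ IsMinor K33 G) : ¬ IsMinor K33 (capG G S) := by
  intro h
  rcases cap_model hS h with h | ⟨A, B, s', a1, a2, a3, a4, a5, a6, a7, a8⟩
  · exact h33 h
  · have hs' : Function.Injective s' := by
      intro i j hij
      by_contra hne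
      exact Set.disjoint_left.1 (a4 i j hne) (a8 i) (hij ▸ a8 j)
    have hsub : Set.range s' ⊆ S := by
      rintro _ ⟨i, rfl⟩
      exact a7 i
    have h3 : (Set.range s').encard = 3 := by
      rw [← Set.image_univ, hs'.encard_image]
      simp
    have := (Set.encard_le_encard hsub).trans h2
    rw [h3] at this
    exact absurd this (by decide)

end Vale.Agent.P235.K5.H490
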